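import Vale.Agent.P004F.Pr.Rep

/-!
# P004F, block PAT: algebra of cocycles on an abstract group (Sah, spans, density)
-/

set_option linter.all false

noncomputable section

namespace Vale.Agent.P004F.Pat

open Vale.Agent.P004F.Pr Function

variable {O : Type} [CommRing O] {G : Type} [Group G] {n : Type} [Fintype n] [DecidableEq n]
  {M M' : Type} [AddCommGroup M] [Module O M] [AddCommGroup M'] [Module O M']

theorem sub_ac {s : Type} (A B : Matrix s n O) (x : n → M) : ac (A - B) x = ac A x - ac B x :=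
  funext fun i => by simp only [ac, Pi.sub_apply, Matrix.sub_apply, sub_smul, Finset.sum_sub_distrib]

theorem smul_ac {s : Type} (c : O) (A : Matrix s n O) (x : n → M) : ac (c • A) x = c • ac A x :=
  funext fun i => by simp only [ac, Pi.smul_apply, Matrix.smul_apply, smul_eq_mul, mul_smul, Finset.smul_sum]

theorem single_ac (i j : n) (x : n → M) : ac (Matrix.single i j (1 : O)) x = Pi.single i (x j) :=
  funext fun k => by
    by_cases e : k = i
    · subst e
      simp [ac, Matrix.single_apply, ite_smul]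
    · simp [ac, Matrix.single_apply, Ne.symm e, e]

/-- the Galois side: `a` is absolutely irreducible, `H` acts trivially, `θ` is the outer
automorphism, `τ` acts by scalars -/
structure Gs (a : G → Matrix n n O) (H : Subgroup G) (θ : G →* G) (τ : G) (c c' : O) : Prop where
  mul : ∀ x y, a (x * y) = a x * a y
  nrm : H.Normal
  triv : ∀ h ∈ H, a h = 1
  th : ∀ h ∈ H, θ h ∈ H
  t1 : a τ = c • 1
  t2 : a (θ τ) = c' • 1
  cm : ∀ g, (τ * g)⁻¹ * (g * τ) ∈ H
  u1 : IsUnit (c - 1)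
  u2 : IsUnit (c - c')
  bs : Submodule.span O (Set.range a) = ⊤

/-- cocycles -/
def Co (a : G → Matrix n n O) (z : G → n → M) : Prop := ∀ x y, z (x * y) = z x + ac (a x) (z y)

variable {a : G → Matrix n n O} {H : Subgroup G} {θ : G →* G} {τ : G} {c c' : O} {z : G → n → M}

theorem Co.map (h : Co a z) (f : M →ₗ[O] M') : Co a fun g i => f (z g i) := fun x y => by
  rw [← ac_lin]
  exact funext fun i => by simp only [h x y, Pi.add_apply, map_add]

theorem Co.prod {z' : G → n → M'} (h : Co a z) (h' : Co a z') : Co a fun g i => (z g i, z' g i) :=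
  fun x y => funext fun i => by
    simp only [h x y, h' x y]
    exact Prod.ext (by simp [ac, Prod.fst_sum]) (by simp [ac, Prod.snd_sum])

variable (s : Gs a H θ τ c c') (hz : Co a z)
include s hz

theorem Gs.add {h : G} (hh : h ∈ H) (y : G) : z (h * y) = z h + z y := by
  rw [hz, s.triv h hh, one_ac]

theorem Gs.one : z 1 = 0 := by
  have := s.add hz (one_mem H) 1
  rw [mul_one] at this
  exact left_eq_add.1 this

theorem Gs.conj (g : G) {h : G} (hh : h ∈ H) : z (g * h * g⁻¹) = ac (a g) (z h) := by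
  have e := s.add hz (s.nrm.conj_mem h hh g) g
  rw [inv_mul_cancel_right, hz, add_comm] at e
  exact (add_right_cancel e).symm

/-- Sah's lemma -/
theorem Gs.sah (h0 : ∀ h ∈ H, z h = 0) : ∃ m, ∀ g, z g = ac (a g) m - m := by
  obtain ⟨d, hd⟩ := s.u1.exists_left_inv
  refine ⟨d • z τ, fun g => ?_⟩
  have e : z (g * τ) = z (τ * g) := by
    rw [← mul_inv_cancel_left (τ * g) (g * τ), hz (τ * g), h0 _ (s.cm g), ac_zero, add_zero]
  rw [hz, hz, s.t1, smul_ac, one_ac] at e
  have : (c - 1) • z g = ac (a g) (z τ) - z τ := by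
    rw [sub_smul, one_smul]
    linear_combination (norm := module) -e
  rw [ac_smul, ← smul_sub, ← this, smul_smul, hd, one_smul]

/-- the value at the square of `h c` -/
def Fv (θ : G →* G) (z : G → n → M) (h : G) : n → M := z h + z (θ h)

theorem Gs.F_eq {h : G} (hh : h ∈ H) : z (h * θ h) = Fv θ z h := s.add hz hh _

theorem Gs.F_add {h h' : G} (hh : h ∈ H) (hh' : h' ∈ H) :
    Fv θ z (h * h') = Fv θ z h + Fv θ z h' := by
  rw [Fv, map_mul, s.add hz hh, s.add hz (s.th h hh), Fv, Fv]; abel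

theorem Gs.F_pow {h : G} (hh : h ∈ H) (k : ℕ) : Fv θ z (h ^ k) = k • Fv θ z h := by
  induction k with
  | zero => simp [Fv, s.one hz]
  | succ k ih => rw [pow_succ, s.F_add hz (pow_mem hh k) hh, ih, succ_nsmul]

/-- a linear map which kills the values `Fv` kills all entries in all positions -/
theorem Gs.kill (L : (n → M) →ₗ[O] M') (hL : ∀ h ∈ H, L (Fv θ z h) = 0) {h : G} (hh : h ∈ H)
    (i j : n) : L (Pi.single i (z h j)) = 0 := by
  have k1 : ∀ h ∈ H, L (z h) = 0 := fun h hh => by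
    have e1 := hL h hh
    have e2 := hL _ (s.nrm.conj_mem h hh τ)
    rw [Fv, map_mul, map_mul, map_inv, s.conj hz _ hh, s.conj hz _ (s.th h hh), s.t1, s.t2, smul_ac,
      smul_ac, one_ac, one_ac, map_add, map_smul, map_smul] at e2
    rw [Fv, map_add] at e1
    refine (s.u2.smul_eq_zero).1 ?_
    rw [sub_smul]
    linear_combination (norm := module) e2 - c' • e1
  have k2 : ∀ A ∈ Submodule.span O (Set.range a), L (ac A (z h)) = 0 := fun A hA => by
    induction hA using Submodule.span_induction with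
    | mem _ e =>
      obtain ⟨g, rfl⟩ := e
      rw [← s.conj hz g hh]
      exact k1 _ (s.nrm.conj_mem h hh g)
    | zero => rw [zero_ac, map_zero]
    | add _ _ _ _ e e' => rw [add_ac, map_add, e, e', add_zero]
    | smul r _ _ e => rw [smul_ac, map_smul, e, smul_zero]
  rw [← single_ac (O := O)]
  exact k2 _ (s.bs ▸ Submodule.mem_top)

theorem Gs.zero (h0 : ∀ h ∈ H, Fv θ z h = 0) {h : G} (hh : h ∈ H) : z h = 0 := funext fun j => by
  simpa using congrFun (s.kill hz .id h0 hh j j) j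

theorem Gs.mem (N : Submodule O M) (h0 : ∀ h ∈ H, ∀ i, Fv θ z h i ∈ N) {h : G} (hh : h ∈ H) (j : n) :
    z h j ∈ N :=
  (Submodule.Quotient.mk_eq_zero N).1 (congrFun (s.zero (hz.map N.mkQ) (fun h hh => funext fun i =>
    (map_add N.mkQ _ _).symm.trans ((Submodule.Quotient.mk_eq_zero N).2 (h0 h hh i))) hh) j)

/-- finitely many values `Fv` generate all values on `H` -/
theorem Gs.fin [IsNoetherian O M] : ∃ (k : ℕ) (h : Fin k → G), (∀ i, h i ∈ H) ∧
    ∀ N : Submodule O M, (∀ i j, Fv θ z (h i) j ∈ N) → ∀ g ∈ H, ∀ j, z g j ∈ N := by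
  obtain ⟨t, ht, e⟩ := (Submodule.fg_span_iff_fg_span_finset_subset
    {x | ∃ h ∈ H, ∃ j, Fv θ z h j = x}).1 (IsNoetherian.noetherian (R := O) _)
  choose h hh j hj using fun x : t => ht x.2
  refine ⟨_, fun i => h (t.equivFin.symm i), fun i => hh _, fun N hN g hg => s.mem hz N ?_ hg⟩
  intro g hg i
  have : Submodule.span O (t : Set M) ≤ N := Submodule.span_le.2 fun x hx => by
    have := hN (t.equivFin ⟨x, hx⟩) (j ⟨x, hx⟩)
    exact (by simpa only [Equiv.symm_apply_apply, hj] using this : x ∈ N)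
  exact this (e ▸ Submodule.subset_span ⟨g, hg, i, rfl⟩)

omit s hz

/-- an additive family which spans contains an element with nonzero determinant -/
theorem dens {k : Type} [CommRing k] [Nontrivial k] (Φ Φ' : G → Fin 2 → k)
    (ad : ∀ h ∈ H, ∀ h' ∈ H, Φ (h * h') = Φ h + Φ h') (ad' : ∀ h ∈ H, ∀ h' ∈ H, Φ' (h * h') = Φ' h + Φ' h')
    (nd : ∀ x y : Fin 2 → k, (∀ h ∈ H, ∑ i, (x i * Φ h i + y i * Φ' h i) = 0) → x = 0 ∧ y = 0) :
    ∃ h ∈ H, Φ h 0 * Φ' h 1 - Φ h 1 * Φ' h 0 ≠ 0 := by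
  by_contra hc
  push Not at hc
  have k : ∀ h ∈ H, Φ h 0 = 0 := fun h' hh' => by
    have := (nd ![Φ' h' 1, -Φ' h' 0] ![-Φ h' 1, Φ h' 0] fun h hh => by
      have e := hc _ (mul_mem hh hh')
      rw [ad h hh h' hh', ad' h hh h' hh'] at e
      simp only [Fin.sum_univ_two, Matrix.cons_val_zero, Matrix.cons_val_one, Pi.add_apply] at e ⊢
      linear_combination e - hc h hh - hc h' hh').2
    simpa using congrFun this 1
  simpa using congrFun (nd ![1, 0] 0 fun h hh => by simp [k h hh]).1 0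

theorem ex_dv [IsDomain O] (b : O) {ϖ : O} (h0 : ϖ ≠ 0) : ∃ dv : O ⧸ Ideal.span {b * ϖ} → O,
    ∀ x, ϖ • x = 0 → x = Ideal.Quotient.mk _ (b * dv x) := by
  have : ∀ x : O ⧸ Ideal.span {b * ϖ}, ∃ d, ϖ • x = 0 → x = Ideal.Quotient.mk _ (b * d) := fun x => by
    obtain ⟨y, rfl⟩ := Ideal.Quotient.mk_surjective x
    by_cases e : ϖ • Ideal.Quotient.mk (Ideal.span {b * ϖ}) y = 0
    · obtain ⟨d, hd⟩ := Ideal.mem_span_singleton.1 (Ideal.Quotient.eq_zero_iff_mem.1
        (show Ideal.Quotient.mk (Ideal.span {b * ϖ}) (ϖ * y) = 0 from e))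
      exact ⟨d, fun _ => congrArg _ (mul_left_cancel₀ h0 (by rw [hd]; ring))⟩
    · exact ⟨0, fun e' => absurd e' e⟩
  exact ⟨fun x => (this x).choose, fun x => (this x).choose_spec⟩

theorem mk_b [IsDomain O] {b ϖ x : O} (hb : b ≠ 0) :
    Ideal.Quotient.mk (Ideal.span {b * ϖ}) (b * x) = 0 ↔ Ideal.Quotient.mk (Ideal.span {ϖ}) x = 0 := by
  rw [Ideal.Quotient.eq_zero_iff_mem, Ideal.Quotient.eq_zero_iff_mem, Ideal.mem_span_singleton,
    Ideal.mem_span_singleton, mul_dvd_mul_iff_left hb]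

/-- **the Chebotarev step in the group**: two points modulo `b ϖ` stay independent at the new
value and a class is not zero there -/
theorem Gs.pick {a : G → Matrix (Fin 2) (Fin 2) O} (s : Gs a H θ τ c c') [IsDomain O] [CharZero O]
    {b ϖ : O} (hb : b ≠ 0) (hϖ : Prime ϖ)
    {v v' : G → Fin 2 → O ⧸ Ideal.span {b * ϖ}} (hv : Co a v) (hv' : Co a v')
    (k1 : ∀ h ∈ H, ϖ • v h = 0) (k2 : ∀ h ∈ H, ϖ • v' h = 0)
    (nd : ∀ x y : O, (∀ h ∈ H, x • v h + y • v' h = 0) → ϖ ∣ x ∧ ϖ ∣ y)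
    {w : G → Fin 2 → O} (hw : Co a w) (w0 : ∃ h ∈ H, w h ≠ 0) :
    ∃ h ∈ H, (∀ x y : O, x • Fv θ v h + y • Fv θ v' h = 0 → ϖ ∣ x ∧ ϖ ∣ y) ∧ Fv θ w h ≠ 0 := by
  obtain ⟨dv, hd⟩ := ex_dv b hϖ.ne_zero
  have : (Ideal.span {ϖ}).IsPrime := (Ideal.span_singleton_prime hϖ.ne_zero).2 hϖ
  let q := Ideal.Quotient.mk (Ideal.span {ϖ})
  let Q := Ideal.Quotient.mk (Ideal.span {b * ϖ})
  have qz : ∀ {x}, q x = 0 ↔ ϖ ∣ x := by
    intro x; rw [Ideal.Quotient.eq_zero_iff_mem, Ideal.mem_span_singleton]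
  have sm : ∀ x y : O, x • Q y = Q (x * y) := fun _ _ => rfl
  have tF : ∀ {v : G → Fin 2 → O ⧸ Ideal.span {b * ϖ}}, (∀ h ∈ H, ϖ • v h = 0) →
      ∀ h ∈ H, ∀ i, Fv θ v h i = Q (b * dv (Fv θ v h i)) := fun k h hh i => hd _ (by
    rw [← Pi.smul_apply, Fv, smul_add, k h hh, k _ (s.th h hh), add_zero]; rfl)
  have ad : ∀ {v : G → Fin 2 → O ⧸ Ideal.span {b * ϖ}}, Co a v → (∀ h ∈ H, ϖ • v h = 0) →
      ∀ h ∈ H, ∀ h' ∈ H, (fun i => q (dv (Fv θ v (h * h') i))) =
        (fun i => q (dv (Fv θ v h i))) + fun i => q (dv (Fv θ v h' i)) := by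
    intro v hv k h hh h' hh'
    funext i
    rw [Pi.add_apply, ← map_add, ← sub_eq_zero, ← map_sub, ← mk_b hb, mul_sub, mul_add, map_sub,
      map_add, ← tF k _ (mul_mem hh hh'), ← tF k _ hh, ← tF k _ hh', s.F_add hv hh hh',
      Pi.add_apply, sub_self]
  have cb : ∀ h ∈ H, ∀ i (x y : O), x • Fv θ v h i + y • Fv θ v' h i =
      Q (b * (x * dv (Fv θ v h i) + y * dv (Fv θ v' h i))) := fun h hh i x y => by
    conv_lhs => rw [tF k1 h hh i, tF k2 h hh i, sm, sm, ← map_add]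
    congr 1; ring
  obtain ⟨h1, m1, d1⟩ := dens (H := H) (fun h i => q (dv (Fv θ v h i))) (fun h i => q (dv (Fv θ v' h i)))
    (ad hv k1) (ad hv' k2) fun x y e => by
      choose x' hx using fun i => Ideal.Quotient.mk_surjective (x i)
      choose y' hy using fun i => Ideal.Quotient.mk_surjective (y i)
      let L : (Fin 2 → (O ⧸ Ideal.span {b * ϖ}) × (O ⧸ Ideal.span {b * ϖ})) →ₗ[O] O ⧸ Ideal.span {b * ϖ} :=
        ∑ i, (x' i • LinearMap.fst O _ _ + y' i • LinearMap.snd O _ _) ∘ₗ LinearMap.proj i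
      have k := fun h (hh : h ∈ H) i j => s.kill (hv.prod hv') L (fun h hh => by
        have : L (Fv θ (fun g i => (v g i, v' g i)) h) =
            ∑ i, (x' i • Fv θ v h i + y' i • Fv θ v' h i) := by simp [L, Fv]
        rw [this, Finset.sum_congr rfl fun i _ => cb h hh i _ _, ← map_sum, ← Finset.mul_sum, mk_b hb,
          ← e h hh]
        simp only [map_sum, map_add, map_mul, hx, hy, q]) hh i j
      have k' := fun i => nd (x' i) (y' i) fun h hh => funext fun j => by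
        have := k h hh i j
        fin_cases i <;> simpa [L] using this
      exact ⟨funext fun i => (hx i).symm.trans (qz.2 (k' i).1), funext fun i =>
        (hy i).symm.trans (qz.2 (k' i).2)⟩
  suffices ∃ h ∈ H, q (dv (Fv θ v h 0)) * q (dv (Fv θ v' h 1)) -
      q (dv (Fv θ v h 1)) * q (dv (Fv θ v' h 0)) ≠ 0 ∧ Fv θ w h ≠ 0 by
    obtain ⟨h, hh, d, e⟩ := this
    refine ⟨h, hh, fun x y k => ?_, e⟩
    have k' := fun i => (mk_b hb).1 ((cb h hh i x y).symm.trans (congrFun k i))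
    have k0 := k' 0
    have k1 := k' 1
    simp only [map_add, map_mul] at k0 k1
    exact ⟨qz.1 ((mul_eq_zero.1 (by
        linear_combination q (dv (Fv θ v' h 1)) * k0 - q (dv (Fv θ v' h 0)) * k1)).resolve_right d),
      qz.1 ((mul_eq_zero.1 (by
        linear_combination q (dv (Fv θ v h 0)) * k1 - q (dv (Fv θ v h 1)) * k0)).resolve_right d)⟩
  by_cases e1 : Fv θ w h1 = 0
  swap
  · exact ⟨h1, m1, d1, e1⟩
  obtain ⟨h2, m2, e2⟩ : ∃ h ∈ H, Fv θ w h ≠ 0 := by
    by_contra hc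
    push Not at hc
    obtain ⟨h, hh, e⟩ := w0
    exact e (s.zero hw hc hh)
  have nz : ∀ k : ℕ, k ≠ 0 → Fv θ w (h1 * h2 ^ k) ≠ 0 := fun k hk => by
    rw [s.F_add hw m1 (pow_mem m2 k), e1, zero_add, s.F_pow hw m2]
    exact smul_ne_zero hk e2
  by_contra hc
  push Not at hc
  have z := fun k (hk : k ≠ 0) => by_contra fun e => nz k hk (hc _ (mul_mem m1 (pow_mem m2 k)) e)
  have z1 := z 1 one_ne_zero
  have z2 := z 2 two_ne_zero
  have z3 := z 3 three_ne_zero
  have p1 : ∀ {v : G → Fin 2 → O ⧸ Ideal.span {b * ϖ}}, Co a v → (∀ h ∈ H, ϖ • v h = 0) → ∀ k i,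
      q (dv (Fv θ v (h1 * h2 ^ k) i)) = q (dv (Fv θ v h1 i)) + (k : ℕ) * q (dv (Fv θ v h2 i)) := by
    intro v hv kv k i
    induction k with
    | zero => simp
    | succ k ih =>
      rw [pow_succ, ← mul_assoc, congrFun (ad hv kv _ (mul_mem m1 (pow_mem m2 k)) _ m2) i,
        Pi.add_apply, ih]
      push_cast; ring
  simp only [p1 hv k1, p1 hv' k2] at z1 z2 z3
  push_cast at z1 z2 z3
  exact d1 (by linear_combination 3 * z1 - 3 * z2 + z3)

end Vale.Agent.P004F.Pat
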