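import Vale.Agent.P004F.Pat.Ul
import Vale.Agent.P004F.Pat.Sah

/-!
# P004F, block PAT: cokernels, limits of matrices, limits of presentations
-/

set_option linter.all false

noncomputable section

namespace Vale.Agent.P004F.Pat

open Vale.Agent.P004F.Pr Function Filter

section ck

variable {R : Type} [CommRing R] {ρ g s : Type} [Fintype ρ] [Fintype g]
  {M M' : Type} [AddCommGroup M] [Module R M] [AddCommGroup M'] [Module R M']

/-- the module with relations the rows of `Q` -/
abbrev Ck (Q : Matrix ρ g R) : Type := (g → R) ⧸ Submodule.span R (Set.range fun i => Q i)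

/-- its generators -/
def gn [DecidableEq g] (Q : Matrix ρ g R) : g → Ck Q := fun a => Submodule.Quotient.mk (Pi.single a 1)

theorem ac_rows {ρ' : Type} {A : Matrix ρ' g R} {B : Matrix s g R} {y : g → M} :
    ac (Matrix.fromRows A B) y = 0 ↔ ac A y = 0 ∧ ac B y = 0 :=
  ⟨fun h => ⟨funext fun i => congrFun h (.inl i), funext fun i => congrFun h (.inr i)⟩,
    fun h => funext fun i => i.rec (congrFun h.1) (congrFun h.2)⟩

variable [DecidableEq g] {Q : Matrix ρ g R}

theorem ac_gn (E : Matrix s g R) : ac E (gn Q) = fun i => Submodule.Quotient.mk (E i) :=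
  funext fun i => by
    simp only [ac, gn, ← Submodule.Quotient.mk_smul]
    rw [← Submodule.mkQ_apply, ← Finset.univ_sum_single (E i), map_sum]
    exact Finset.sum_congr rfl fun a _ => by simp [← Pi.single_smul]

theorem ac_Q (Q : Matrix ρ g R) : ac Q (gn Q) = 0 := by
  rw [ac_gn]
  exact funext fun i => (Submodule.Quotient.mk_eq_zero _).2 (Submodule.subset_span ⟨i, rfl⟩)

theorem gn_zero {v : g → R} : ∑ a, v a • gn Q a = 0 ↔ ∃ β : ρ → R, v = Matrix.vecMul β Q := by
  have := congrFun (ac_gn (Q := Q) (Matrix.of fun (_ : Unit) => v)) ()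
  rw [show ∑ a, v a • gn Q a = Submodule.Quotient.mk v from this, Submodule.Quotient.mk_eq_zero,
    Submodule.mem_span_range_iff_exists_fun]
  exact exists_congr fun β => by rw [Matrix.vecMul_eq_sum, eq_comm]

theorem span_gn (Q : Matrix ρ g R) : Submodule.span R (Set.range (gn Q)) = ⊤ :=
  top_unique fun x _ => by
    obtain ⟨v, rfl⟩ := Submodule.Quotient.mk_surjective _ x
    exact (Submodule.mem_span_range_iff_exists_fun R).2
      ⟨v, congrFun (ac_gn (Q := Q) (Matrix.of fun (_ : Unit) => v)) ()⟩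

theorem ex_rw {E : Matrix s g R} (h : ac E (gn Q) = 0) : ∃ β : Matrix s ρ R, E = β * Q := by
  choose β hβ using fun i => gn_zero.1 (congrFun h i)
  exact ⟨.of β, Matrix.ext fun i a => congrFun (hβ i) a⟩

theorem ex_lift (x : s → Ck Q) : ∃ A : Matrix s g R, ac A (gn Q) = x := by
  choose A hA using fun i => Submodule.Quotient.mk_surjective _ (x i)
  exact ⟨.of A, (ac_gn _).trans (funext hA)⟩

/-- the point defined by a solution -/
def ev (y : g → M) (h : ac Q y = 0) : Ck Q →ₗ[R] M :=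
  Submodule.liftQ _ (Fintype.linearCombination R y) (Submodule.span_le.2 fun _ ⟨i, e⟩ => by
    rw [← e]; exact congrFun h i)

theorem ev_gn (y : g → M) (h : ac Q y = 0) (a : g) : ev y h (gn Q a) = y a := by
  simp [ev, gn]

theorem ev_ac (y : g → M) (h : ac Q y = 0) (E : Matrix s g R) (i : s) :
    ev y h (ac E (gn Q) i) = ac E y i := by
  rw [congrFun (ac_lin (ev y h) E (gn Q)) i, funext (ev_gn y h)]

theorem sol (f : Ck Q →ₗ[R] M) : ac Q (fun a => f (gn Q a)) = 0 := by
  rw [← ac_lin, ac_Q]; exact funext fun _ => map_zero f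

theorem ck_ext {f f' : Ck Q →ₗ[R] M} (h : ∀ a, f (gn Q a) = f' (gn Q a)) : f = f' :=
  LinearMap.ext_on_range (span_gn Q) h

theorem of_gn {E : Matrix s g R} (h : ac E (gn Q) = 0) {y : g → M} (hy : ac Q y = 0) : ac E y = 0 :=
  funext fun i => by rw [← ev_ac y hy, h]; exact map_zero _

end ck

/-! ## limits -/

variable {R : ℕ → Type} [∀ j, CommRing (R j)] {O : Type} [CommRing O] {ψ : (∀ j, R j) →+* O}

variable (ψ) in
/-- `ψ` depends only on the class almost everywhere -/
def Ae : Prop := ∀ x y : ∀ j, R j, (∀ᶠ j in U, x j = y j) → ψ x = ψ y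

theorem Sy.ae {p : ∀ j, La →+* R j} (hp : Sy p) (φ : La →+* O) : Ae (φ.comp hp.ur) :=
  fun _ _ h => congrArg φ (hp.ur_ae h)

variable {m n o : Type}

variable (ψ) in
/-- the limit of a sequence of matrices -/
def lm (A : ∀ j, Matrix m n (R j)) : Matrix m n O := .of fun a b => ψ fun j => A j a b

theorem lm_um {p : ∀ j, La →+* R j} (hp : Sy p) (φ : La →+* O) (A : ∀ j, Matrix m n (R j)) :
    lm (φ.comp hp.ur) A = (hp.um A).map φ := rfl

theorem lm_const {p : ∀ j, La →+* R j} (hp : Sy p) (φ : La →+* O) (A : Matrix m n La) :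
    lm (φ.comp hp.ur) (fun j => A.map (p j)) = A.map φ := by rw [lm_um, hp.um_const]

theorem lm_map {O' : Type} [CommRing O'] (φ : O →+* O') (A : ∀ j, Matrix m n (R j)) :
    lm (φ.comp ψ) A = (lm ψ A).map φ := rfl

theorem lm_apply (A : ∀ j, Matrix m n (R j)) (a : m) (b : n) : lm ψ A a b = ψ fun j => A j a b := rfl

theorem lm_zero : lm ψ (fun j => (0 : Matrix m n (R j))) = 0 := Matrix.ext fun a b => ψ.map_zero

theorem lm_add (A B : ∀ j, Matrix m n (R j)) : lm ψ (fun j => A j + B j) = lm ψ A + lm ψ B :=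
  Matrix.ext fun a b => ψ.map_add _ _

theorem lm_neg (A : ∀ j, Matrix m n (R j)) : lm ψ (fun j => -A j) = -lm ψ A :=
  Matrix.ext fun a b => ψ.map_neg _

theorem lm_sub (A B : ∀ j, Matrix m n (R j)) : lm ψ (fun j => A j - B j) = lm ψ A - lm ψ B :=
  Matrix.ext fun a b => ψ.map_sub _ _

theorem lm_smul (c : ∀ j, R j) (A : ∀ j, Matrix m n (R j)) :
    lm ψ (fun j => c j • A j) = ψ c • lm ψ A := Matrix.ext fun a b => ψ.map_mul _ _

theorem lm_sum {ι : Type} (s : Finset ι) (A : ι → ∀ j, Matrix m n (R j)) :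
    lm ψ (fun j => ∑ i ∈ s, A i j) = ∑ i ∈ s, lm ψ (A i) :=
  Matrix.ext fun a b => by
    simp only [lm_apply, Matrix.sum_apply, ← map_sum]
    exact congrArg _ (funext fun j => by simp [Finset.sum_apply])

theorem lm_mul [Fintype n] (A : ∀ j, Matrix m n (R j)) (B : ∀ j, Matrix n o (R j)) :
    lm ψ (fun j => A j * B j) = lm ψ A * lm ψ B :=
  Matrix.ext fun a b => by
    simp only [lm_apply, Matrix.mul_apply, ← map_mul, ← map_sum]
    exact congrArg _ (funext fun j => by simp [Finset.sum_apply])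

theorem lm_tr (A : ∀ j, Matrix m n (R j)) : lm ψ (fun j => (A j).transpose) = (lm ψ A).transpose := rfl

theorem lm_subm {m' n' : Type} (A : ∀ j, Matrix m n (R j)) (f : m' → m) (g : n' → n) :
    lm ψ (fun j => (A j).submatrix f g) = (lm ψ A).submatrix f g := rfl

theorem lm_rows (A : ∀ j, Matrix m n (R j)) (B : ∀ j, Matrix o n (R j)) :
    lm ψ (fun j => Matrix.fromRows (A j) (B j)) = Matrix.fromRows (lm ψ A) (lm ψ B) :=
  Matrix.ext fun a b => a.rec (fun _ => rfl) fun _ => rfl

theorem lm_one [DecidableEq n] : lm ψ (fun j => (1 : Matrix n n (R j))) = 1 :=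
  Matrix.ext fun a b => by
    by_cases e : a = b
    · simp only [lm_apply, Matrix.one_apply, if_pos e]; exact ψ.map_one
    · simp only [lm_apply, Matrix.one_apply, if_neg e]; exact ψ.map_zero

theorem lm_det [Fintype n] [DecidableEq n] (A : ∀ j, Matrix n n (R j)) :
    (lm ψ A).det = ψ fun j => (A j).det := by
  have e : lm ψ A = ψ.mapMatrix (Matrix.of fun a b j => A j a b) := rfl
  rw [e, ← RingHom.map_det]
  exact congrArg _ (funext fun j => (Pi.evalRingHom R j).map_det _)

variable (hψ : Ae ψ)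
include hψ

theorem Ae.lm {A B : ∀ j, Matrix m n (R j)} (h : ∀ᶠ j in U, A j = B j) : lm ψ A = lm ψ B :=
  Matrix.ext fun a b => hψ _ _ (h.mono fun j e => by rw [e])

theorem Ae.solve [Fintype o] {A : ∀ j, Matrix m n (R j)} {B : ∀ j, Matrix o n (R j)}
    (h : ∀ᶠ j in U, ∃ β : Matrix m o (R j), A j = β * B j) :
    ∃ β : Matrix m o O, Pat.lm ψ A = β * Pat.lm ψ B := by
  classical
  refine ⟨Pat.lm ψ fun j => if e : ∃ β : Matrix m o (R j), A j = β * B j then e.choose else 0, ?_⟩
  rw [← lm_mul]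
  exact hψ.lm (h.mono fun j e => by rw [dif_pos e]; exact e.choose_spec)

variable {ρ g s : Type} [Fintype ρ] [Fintype g] [DecidableEq g] {Q : ∀ j, Matrix ρ g (R j)}
  {M : Type} [AddCommGroup M] [Module O M]

/-- **transfer of linear identities** -/
theorem Ae.zero {E : ∀ j, Matrix s g (R j)} (h : ∀ᶠ j in U, ac (E j) (gn (Q j)) = 0) {y : g → M}
    (hy : ac (Pat.lm ψ Q) y = 0) : ac (Pat.lm ψ E) y = 0 := by
  obtain ⟨β, e⟩ := hψ.solve (h.mono fun j => ex_rw)
  rw [e, mul_ac, hy, ac_zero]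

theorem Ae.eq {E E' : ∀ j, Matrix s g (R j)} (h : ∀ᶠ j in U, ac (E j) (gn (Q j)) = ac (E' j) (gn (Q j)))
    {y : g → M} (hy : ac (Pat.lm ψ Q) y = 0) : ac (Pat.lm ψ E) y = ac (Pat.lm ψ E') y := by
  rw [← sub_eq_zero, ← sub_ac, ← lm_sub]
  exact hψ.zero (h.mono fun j e => by rw [sub_ac, e, sub_self]) hy

end Vale.Agent.P004F.Pat
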